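import Vale.Agent.P179.Stmt

/-! P179: definitions used in the proof. -/

open Finset
open scoped Classical

noncomputable section

namespace Vale.Agent.P179

section Grp
variable (p : ℕ) {H : Type} [Group H]

/-- `x` is a `p`-element. -/
def IsP (x : H) : Prop := ∃ k : ℕ, x ^ p ^ k = 1

/-- `x` is `p`-regular. -/
def IsReg (x : H) : Prop := (orderOf x).Coprime p

variable (H) in
/-- All `p`-subgroups are commutative. -/
def Ab : Prop := ∀ Q : Subgroup H, IsPGroup p Q → ∀ a ∈ Q, ∀ b ∈ Q, a * b = b * a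

variable (H) in
/-- The `p`-part of the order. -/
def pp : ℕ := p ^ (Nat.card H).factorization p

variable (H) in
/-- The number of irreducible characters of defect zero. -/
def zz : ℕ := Nat.card {χ : H → ℂ // IsIrr χ ∧ DefectZero p χ}

variable (H) in
/-- The number of `p`-regular classes. -/
def numReg : ℕ := Nat.card {c : ConjClasses H // ∃ a, ConjClasses.mk a = c ∧ IsReg p a}

variable {p} in
/-- The commutator. -/
def cm (a b : H) : H := a * b * a⁻¹ * b⁻¹

variable {p} in
/-- `g` normalizes `Q`. -/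
def Fx (g : H) (Q : Subgroup H) : Prop := g ∈ Subgroup.normalizer (Q : Set H)

variable {p} in
/-- `g` normalizes every member of `σ`. -/
def FxC (g : H) (σ : Finset (Subgroup H)) : Prop := ∀ Q ∈ σ, Fx g Q

/-- Chains of `p`-subgroups strictly above `Q₀`. -/
def IsCh (Q₀ : Subgroup H) (σ : Finset (Subgroup H)) : Prop :=
  (∀ Q ∈ σ, IsPGroup p Q ∧ Q₀ < Q) ∧ ∀ Q ∈ σ, ∀ Q' ∈ σ, Q ≤ Q' ∨ Q' ≤ Q

variable {p} in
/-- The sign of a chain. -/
def sg (σ : Finset (Subgroup H)) : ℤ := (-1) ^ σ.card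

variable {p} in
/-- The subgroup that is inserted or removed. -/
def tb (Q₀ R : Subgroup H) (σ : Finset (Subgroup H)) : Subgroup H :=
  (Q₀ ⊔ (σ.filter fun Q => ¬ R ≤ Q).sup id) ⊔ R

variable {p} in
/-- The involution of Knoerr and Robinson. -/
def tg (Q₀ R : Subgroup H) (σ : Finset (Subgroup H)) : Finset (Subgroup H) :=
  if tb Q₀ R σ ∈ σ then σ.erase (tb Q₀ R σ) else insert (tb Q₀ R σ) σ

variable {p} in
/-- Conjugation of a subgroup. -/
def cs (y : H) (Q : Subgroup H) : Subgroup H := Q.map (MulAut.conj y).toMonoidHom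

variable {p} in
/-- Conjugation of a chain. -/
def cc (y : H) (σ : Finset (Subgroup H)) : Finset (Subgroup H) := σ.image (cs y)

variable [Fintype H]

/-- The signed number of chains above `Q₀` fixed by `a` and `b`. -/
def mu (Q₀ : Subgroup H) (a b : H) : ℤ :=
  ∑ σ : Finset (Subgroup H) with IsCh p Q₀ σ ∧ FxC a σ ∧ FxC b σ, sg σ

variable (H) in
/-- Commuting pairs with `p`-regular first entry, weighted by chains. -/
def aa : ℤ := ∑ x : H × H with x.1 * x.2 = x.2 * x.1 ∧ IsReg p x.1, mu p ⊥ x.1 x.2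

variable (H) in
/-- The number of pairs whose commutator is a `p`-element. -/
def ct : ℕ := #{x : H × H | IsP p (cm x.1 x.2)}

end Grp

section Hol
variable {P T : Type} [CommGroup P] [MulAction P T]

variable (P) in
/-- Points with trivial stabilizer. -/
def Free (ξ : T) : Prop := ∀ y : P, y • ξ = ξ → y = 1

/-- An equivariant trivialisation on the free points. -/
def Triv (h : T → P) : Prop := ∀ (y : P) (ξ : T), Free P ξ → h (y • ξ) = y * h ξ

variable (P) in
/-- An invariant weight carried by free points. -/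
def Wt (w : T → ℤ) : Prop := (∀ ξ, w ξ ≠ 0 → Free P ξ) ∧ ∀ (y : P) (ξ : T), w (y • ξ) = w ξ

variable (P) in
/-- An equivariant permutation. -/
def Eqv (s : Equiv.Perm T) : Prop := ∀ (y : P) (ξ : T), s (y • ξ) = y • s ξ

/-- The total holonomy. -/
def hol [Fintype T] (h : T → P) (w : T → ℤ) (s : Equiv.Perm T) : P :=
  ∏ ξ : T with h ξ = 1, h (s ξ) ^ w ξ

end Hol

section Tri
variable {H : Type} [Group H]

variable (H) in
/-- Triples: a chain and a pair. -/
abbrev Tr : Type := Finset (Subgroup H) × H × H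

/-- Conjugation of a triple. -/
def cj (y : H) (ξ : Tr H) : Tr H := (cc y ξ.1, y * ξ.2.1 * y⁻¹, y * ξ.2.2 * y⁻¹)

theorem cs_one (Q : Subgroup H) : cs 1 Q = Q := by
  ext x
  simp [cs]

theorem cs_mul (y z : H) (Q : Subgroup H) : cs (y * z) Q = cs y (cs z Q) := by
  simp only [cs, Subgroup.map_map]
  congr 1
  ext x
  simp [mul_assoc]

/-- A commutative subgroup as a commutative group. -/
structure CSub (H : Type) [Group H] where
  P : Subgroup H
  comm : ∀ a ∈ P, ∀ b ∈ P, a * b = b * a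

/-- The underlying commutative group. -/
def CSub.G (C : CSub H) : Type := C.P

instance (C : CSub H) : CommGroup C.G :=
  { (inferInstance : Group C.P) with mul_comm := fun a b => Subtype.ext (C.comm _ a.2 _ b.2) }

instance [Finite H] (C : CSub H) : Finite C.G := inferInstanceAs (Finite C.P)

/-- The inclusion. -/
def CSub.val (C : CSub H) (y : C.G) : H := y.1

instance (C : CSub H) : MulAction C.G (Tr H) where
  smul y ξ := cj (C.val y) ξ
  one_smul ξ := by
    change cj 1 ξ = ξ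
    simp [cj, cc, funext cs_one]
  mul_smul y z ξ := by
    change cj (C.val y * C.val z) ξ = cj (C.val y) (cj (C.val z) ξ)
    simp only [cj, cc, Finset.image_image, mul_assoc, mul_inv_rev, Prod.mk.injEq, and_true]
    congr 1
    exact funext (cs_mul _ _)

/-- The first braid generator. -/
def s1 : Equiv.Perm (Tr H) where
  toFun ξ := (ξ.1, ξ.2.1, ξ.2.2 * ξ.2.1)
  invFun ξ := (ξ.1, ξ.2.1, ξ.2.2 * ξ.2.1⁻¹)
  left_inv ξ := by simp
  right_inv ξ := by simp

/-- The second braid generator. -/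
def s2 : Equiv.Perm (Tr H) where
  toFun ξ := (ξ.1, ξ.2.1 * ξ.2.2⁻¹, ξ.2.2)
  invFun ξ := (ξ.1, ξ.2.1 * ξ.2.2, ξ.2.2)
  left_inv ξ := by simp
  right_inv ξ := by simp

variable (p : ℕ) (C : CSub H) (x : H)

/-- Chains fixed by a pair with commutator `x`. -/
def InX (ξ : Tr H) : Prop := IsCh p ⊥ ξ.1 ∧ FxC ξ.2.1 ξ.1 ∧ FxC ξ.2.2 ξ.1 ∧ cm ξ.2.1 ξ.2.2 = x

/-- The sign on the free part. -/
def wx (ξ : Tr H) : ℤ := if InX p x ξ ∧ Free C.G ξ then sg ξ.1 else 0

/-- The elements of `P` that commute with `a` and fix the chain. -/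
def E0 (ξ : Tr H) : Subgroup H :=
  C.P ⊓ Subgroup.centralizer {ξ.2.1} ⊓ ⨅ Q ∈ ξ.1, Subgroup.normalizer (Q : Set H)

/-- The twisting group. -/
def Mx (ξ : Tr H) : Subgroup H := Subgroup.zpowers ξ.2.1 ⊔ E0 C ξ

/-- The elements of `E0` that `b` conjugates into the twisting group. -/
def Dx (ξ : Tr H) : Subgroup H := E0 C ξ ⊓ cs ξ.2.2 (Mx C ξ)

/-- The normal type. -/
def Nx (ξ : Tr H) : Prop := E0 C ξ ≠ ⊥ ∧ Fx ξ.2.2 (E0 C ξ)

/-- The pieces. -/
def Ox (ξ η : Tr H) : Prop := ∃ y : C.G, ∃ g ∈ Mx C ξ, η = y • ((ξ.1, ξ.2.1, ξ.2.2 * g) : Tr H)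

end Tri

end Vale.Agent.P179
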